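import Crest.Agent.Ryser.Prob

/-!
# McDiarmid's inequality: `mcdiarmid_upper`, `mcdiarmid_lower` are proved in Prob.lean.
-/
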